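import Vale.Agent.P235.Low.Mono

/-! # P235, lower bound: the ladder composite

Every vertex of the layer (a vertex of `N`, or one of a pair inside a ladder replacing an edge of
`N`) sits on a column from the source to the sink, at one of the two middle heights; consecutive
pairs of a ladder are completely joined. -/

open MeasureTheory

namespace Vale.Agent.P235.Low

variable (N : Net) (L : ℕ)

/-- Number of steps of a ladder. -/
def steps : ℕ := 2 * (L + 1)

/-- Length of the columns below the layer. -/
def margin : ℕ := steps L * (N.T + 1)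

/-- The layer. -/
abbrev W : Type := N.V ⊕ (N.E × Fin (2 * L + 1) × Bool)

/-- Height of a layer vertex. -/
def hw : W N L → ℕ
  | Sum.inl _ => margin N L
  | Sum.inr q => if (q.2.1 : ℕ) % 2 = 1 then margin N L else margin N L + 1

/-- The vertices at level `l` of the ladder of `e`. -/
def pt (e : N.E) (l : ℕ) (b : Bool) : W N L :=
  if hl : 0 < l ∧ l - 1 < 2 * L + 1 then Sum.inr (e, ⟨l - 1, hl.2⟩, b)
  else if l = 0 then Sum.inl (N.src e) else Sum.inl (N.tgt e)

theorem pt_inr (e : N.E) (j : Fin (2 * L + 1)) (b : Bool) :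
    pt N L e ((j : ℕ) + 1) b = Sum.inr (e, j, b) := by
  simp [pt, j.isLt]

theorem pt_zero (e : N.E) (b : Bool) : pt N L e 0 b = Sum.inl (N.src e) := by
  simp [pt]

theorem pt_top (e : N.E) (b : Bool) : pt N L e (steps L) b = Sum.inl (N.tgt e) := by
  rw [pt, dif_neg (by simp only [steps]; omega), if_neg (by simp only [steps]; omega)]

theorem hw_pt (e : N.E) (l : ℕ) (hl : l ≤ steps L) (b : Bool) :
    hw N L (pt N L e l b) = if l % 2 = 0 then margin N L else margin N L + 1 := by
  simp only [steps] at hl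
  unfold pt
  split_ifs <;> simp only [hw] <;> (try split_ifs) <;> omega

theorem hw_bounds (w : W N L) : margin N L ≤ hw N L w ∧ hw N L w ≤ margin N L + 1 := by
  rcases w with v | q
  · simp [hw]
  · simp only [hw]; split_ifs <;> omega

theorem margin_pos : 0 < margin N L := by
  simp [margin, steps]

/-- The vertex at height `i` of the column of `w`. -/
def col (w : W N L) (i : ℕ) : Bool ⊕ (W N L × Fin (2 * margin N L)) :=
  if hi : 0 < i ∧ i - 1 < 2 * margin N L then Sum.inr (w, ⟨i - 1, hi.2⟩)
  else if i = 0 then Sum.inl false else Sum.inl true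

/-- Height in the composite. -/
def compH : Bool ⊕ (W N L × Fin (2 * margin N L)) → ℕ
  | Sum.inl b => if b then 2 * margin N L + 1 else 0
  | Sum.inr q => (q.2 : ℕ) + 1

theorem compH_col (w : W N L) (i : ℕ) (hi : i ≤ 2 * margin N L + 1) :
    compH N L (col N L w i) = i := by
  unfold col
  split_ifs <;> simp only [compH] <;> (try simp) <;> omega

theorem col_inr (q : W N L × Fin (2 * margin N L)) :
    col N L q.1 ((q.2 : ℕ) + 1) = Sum.inr q := by
  simp [col, q.2.isLt]

/-- Lower end of a ladder edge. -/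
def lo (j : ℕ) : ℕ := if j % 2 = 0 then j else j + 1

/-- Upper end of a ladder edge. -/
def hi (j : ℕ) : ℕ := if j % 2 = 0 then j + 1 else j

/-- The position of a layer vertex in the composite. -/
def lay (w : W N L) : Bool ⊕ (W N L × Fin (2 * margin N L)) := col N L w (hw N L w)

/-- Edges of the composite: column edges and ladder edges. -/
abbrev CE : Type :=
  (W N L × Fin (2 * margin N L + 1)) ⊕ (N.E × Fin (steps L) × Bool × Bool)

/-- The composite. -/
noncomputable def comp : Net where
  I := W N L × Fin (2 * margin N L)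
  E := CE N L
  fI := inferInstance
  dI := inferInstance
  fE := inferInstance
  dE := Classical.decEq _
  T := 2 * margin N L + 1
  T_pos := Nat.succ_pos _
  src := Sum.elim (fun p => col N L p.1 p.2)
    (fun q => lay N L (pt N L q.1 (lo q.2.1) q.2.2.1))
  tgt := Sum.elim (fun p => col N L p.1 ((p.2 : ℕ) + 1))
    (fun q => lay N L (pt N L q.1 (hi q.2.1) q.2.2.2))
  h := compH N L
  h_s := rfl
  h_t := rfl
  h_le := by
    rintro (b | q)
    · cases b <;> simp [compH]
    · simp only [compH]; have := q.2.isLt; omega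
  grade := by
    rintro (p | q)
    · have := p.2.isLt
      simp only [Sum.elim_inl]
      rw [compH_col _ _ _ _ (by omega), compH_col _ _ _ _ (by omega)]
    · have hq := q.2.1.isLt
      have hb := hw_bounds N L (pt N L q.1 (lo q.2.1) q.2.2.1)
      have hb' := hw_bounds N L (pt N L q.1 (hi q.2.1) q.2.2.2)
      simp only [Sum.elim_inr, lay]
      rw [compH_col _ _ _ _ (by omega), compH_col _ _ _ _ (by omega)]
      have hl : lo q.2.1 ≤ steps L ∧ hi q.2.1 ≤ steps L := by
        unfold lo hi steps at *; split_ifs <;> omega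
      rw [hw_pt _ _ _ _ hl.1, hw_pt _ _ _ _ hl.2]
      unfold lo hi
      split_ifs <;> omega
  down := by
    rintro (b | q) hv
    · cases b
      · exact absurd rfl hv
      · refine ⟨Sum.inl (Sum.inl N.s, ⟨2 * margin N L, by omega⟩), ?_⟩
        simp [col]
    · exact ⟨Sum.inl (q.1, ⟨(q.2 : ℕ), by omega⟩), col_inr N L q⟩
  up := by
    rintro (b | q) hv
    · cases b
      · refine ⟨Sum.inl (Sum.inl N.s, ⟨0, by omega⟩), ?_⟩
        simp [col]
      · exact absurd rfl hv
    · exact ⟨Sum.inl (q.1, ⟨(q.2 : ℕ) + 1, by omega⟩), col_inr N L q⟩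

/-- A point moved towards `c` by at most `k`. -/
noncomputable def clamp (a c k : ℝ) : ℝ := max (a - k) (min (a + k) c)

theorem clamp_lip (a c k k' : ℝ) : |clamp a c k - clamp a c k'| ≤ |k - k'| := by
  unfold clamp
  refine (abs_max_sub_max_le_max _ _ _ _).trans (max_le ?_ ?_)
  · rw [show a - k - (a - k') = -(k - k') by ring, abs_neg]
  · refine (abs_min_sub_min_le_max _ _ _ _).trans (max_le ?_ ?_)
    · rw [show a + k - (a + k') = k - k' by ring]
    · simp

theorem clamp_far {a c k : ℝ} (h : |a - c| ≤ k) : clamp a c k = c := by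
  have := abs_le.1 h
  unfold clamp
  rw [min_eq_right (by linarith), max_eq_right (by linarith)]

theorem clamp_zero (a c : ℝ) : clamp a c 0 = a := by
  simp [clamp]

/-- A potential differs from its value at the source by at most the height. -/
theorem Net.Pot.from_s {N : Net} {φ : N.V → ℝ} (hφ : N.Pot φ) (v : N.V) :
    |φ v - φ N.s| ≤ N.h v := by
  have h : Lip N (Measure.dirac ()) (fun w _ => φ w) :=
    ⟨fun w => integrable_const _, fun e => by simpa [d1] using hφ e⟩
  simpa [d1] using h.from_s v

/-- Values on the layer of the potential lifted from `N`. -/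
noncomputable def layPot (φ : N.V → ℝ) : W N L → ℝ
  | Sum.inl v => steps L * φ v
  | Sum.inr q =>
    steps L * φ (N.src q.1) + (((q.2.1 : ℕ) : ℝ) + 1) * (φ (N.tgt q.1) - φ (N.src q.1))

theorem layPot_pt (φ : N.V → ℝ) (e : N.E) {l : ℕ} (hl : l ≤ steps L) (b : Bool) :
    layPot N L φ (pt N L e l b) = steps L * φ (N.src e) + l * (φ (N.tgt e) - φ (N.src e)) := by
  rcases Nat.eq_zero_or_pos l with rfl | h0
  · rw [pt_zero]; simp [layPot]
  · rcases eq_or_lt_of_le hl with rfl | hlt
    · rw [pt_top]; simp only [layPot]; ring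
    · simp only [steps] at hlt
      obtain ⟨j, rfl⟩ : ∃ j, l = j + 1 := ⟨l - 1, by omega⟩
      rw [show j + 1 = ((⟨j, by omega⟩ : Fin (2 * L + 1)) : ℕ) + 1 from rfl, pt_inr]
      simp only [layPot]; push_cast; ring

theorem layPot_center {φ : N.V → ℝ} (hφ : N.Pot φ) (w : W N L) :
    |layPot N L φ w - steps L * φ N.s| ≤ margin N L := by
  have hT : ∀ v, |φ v - φ N.s| ≤ (N.T : ℝ) := fun v =>
    (hφ.from_s v).trans (Nat.cast_le.2 (N.h_le v))
  have hm : (margin N L : ℝ) = steps L * N.T + steps L := by
    simp only [margin, Nat.cast_mul, Nat.cast_add, Nat.cast_one]; ring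
  have hs : (0 : ℝ) ≤ steps L := Nat.cast_nonneg _
  rcases w with v | q
  · simp only [layPot]
    rw [← mul_sub, abs_mul, abs_of_nonneg hs, hm]
    nlinarith [hT v]
  · simp only [layPot]
    have h1 : |(steps L : ℝ) * φ (N.src q.1) - steps L * φ N.s| ≤ steps L * N.T := by
      rw [← mul_sub, abs_mul, abs_of_nonneg hs]
      exact mul_le_mul_of_nonneg_left (hT _) hs
    have hq : ((q.2.1 : ℕ) : ℝ) + 1 ≤ steps L := by
      have := q.2.1.isLt
      exact_mod_cast (show (q.2.1 : ℕ) + 1 ≤ steps L by simp only [steps]; omega)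
    have h2 : |(((q.2.1 : ℕ) : ℝ) + 1) * (φ (N.tgt q.1) - φ (N.src q.1))| ≤ steps L := by
      rw [abs_mul, abs_of_nonneg (by positivity)]
      calc _ ≤ (steps L : ℝ) * 1 := mul_le_mul hq (hφ q.1) (abs_nonneg _) hs
        _ = _ := mul_one _
    rw [hm]
    have h3 := abs_add_le ((steps L : ℝ) * φ (N.src q.1) - steps L * φ N.s)
      ((((q.2.1 : ℕ) : ℝ) + 1) * (φ (N.tgt q.1) - φ (N.src q.1)))
    rw [show (steps L : ℝ) * φ (N.src q.1) + (((q.2.1 : ℕ) : ℝ) + 1) *
      (φ (N.tgt q.1) - φ (N.src q.1)) - steps L * φ N.s = ((steps L : ℝ) * φ (N.src q.1) -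
      steps L * φ N.s) + (((q.2.1 : ℕ) : ℝ) + 1) * (φ (N.tgt q.1) - φ (N.src q.1)) by ring]
    linarith

/-- The lifted potential. -/
noncomputable def liftPot (φ : N.V → ℝ) : Bool ⊕ (W N L × Fin (2 * margin N L)) → ℝ :=
  Sum.elim (fun _ => steps L * φ N.s) fun q : W N L × Fin (2 * margin N L) =>
    clamp (layPot N L φ q.1) (steps L * φ N.s) |((q.2 : ℕ) : ℝ) + 1 - hw N L q.1|

theorem liftPot_col {φ : N.V → ℝ} (hφ : N.Pot φ) (w : W N L) {i : ℕ}
    (hi : i ≤ 2 * margin N L + 1) :
    liftPot N L φ (col N L w i) =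
      clamp (layPot N L φ w) (steps L * φ N.s) |(i : ℝ) - hw N L w| := by
  have hc := layPot_center N L hφ w
  obtain ⟨hb1, hb2⟩ := hw_bounds N L w
  have hb1' : (margin N L : ℝ) ≤ hw N L w := Nat.cast_le.2 hb1
  have hb2' : (hw N L w : ℝ) ≤ margin N L + 1 := by exact_mod_cast hb2
  rcases Nat.eq_zero_or_pos i with rfl | h0
  · simp only [col, lt_irrefl, false_and, dite_false, if_true, liftPot, Sum.elim_inl]
    rw [clamp_far]
    simp only [Nat.cast_zero, zero_sub, abs_neg, Nat.abs_cast]
    linarith
  · rcases eq_or_lt_of_le hi with rfl | hlt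
    · simp only [col]
      rw [dif_neg (by omega), if_neg (by omega)]
      simp only [liftPot, Sum.elim_inl]
      rw [clamp_far]
      refine le_trans hc (le_trans ?_ (le_abs_self _))
      push_cast
      linarith
    · obtain ⟨j, rfl⟩ : ∃ j, i = j + 1 := ⟨i - 1, by omega⟩
      have := col_inr N L (w, ⟨j, by omega⟩)
      simp only at this
      rw [this]
      simp [liftPot]

theorem liftPot_lay {φ : N.V → ℝ} (hφ : N.Pot φ) (w : W N L) :
    liftPot N L φ (lay N L w) = layPot N L φ w := by
  have := hw_bounds N L w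
  rw [lay, liftPot_col N L hφ w (by omega), sub_self, abs_zero, clamp_zero]

theorem liftPot_pot {φ : N.V → ℝ} (hφ : N.Pot φ) : (comp N L).Pot (liftPot N L φ) := by
  rintro (p | q)
  · have := p.2.isLt
    show |liftPot N L φ (col N L p.1 ((p.2 : ℕ) + 1)) - liftPot N L φ (col N L p.1 p.2)| ≤ 1
    rw [liftPot_col N L hφ _ (by omega), liftPot_col N L hφ _ (by omega)]
    refine (clamp_lip _ _ _ _).trans ((abs_abs_sub_abs_le_abs_sub _ _).trans ?_)
    push_cast
    simp
  · have hq := q.2.1.isLt
    have hl : lo q.2.1 ≤ steps L ∧ hi q.2.1 ≤ steps L := by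
      unfold lo hi steps at *; split_ifs <;> omega
    show |liftPot N L φ (lay N L (pt N L q.1 (hi q.2.1) q.2.2.2)) -
      liftPot N L φ (lay N L (pt N L q.1 (lo q.2.1) q.2.2.1))| ≤ 1
    rw [liftPot_lay N L hφ, liftPot_lay N L hφ, layPot_pt N L _ _ hl.1, layPot_pt N L _ _ hl.2]
    have h1 := hφ q.1
    rw [add_sub_add_left_eq_sub, ← sub_mul, abs_mul]
    refine mul_le_one₀ ?_ (abs_nonneg _) h1
    unfold lo hi
    split_ifs <;> simp

theorem col_inj {w w' : W N L} {i i' : ℕ} (hi : 0 < i) (hi2 : i ≤ 2 * margin N L)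
    (h : col N L w i = col N L w' i') : w = w' := by
  unfold col at h
  rw [dif_pos ⟨hi, by omega⟩] at h
  split_ifs at h with h1
  exact (Prod.mk.inj (Sum.inr.inj h)).1

variable {N L}

/-- A good embedding separates the two vertices of a pair. -/
theorem twins {Ω : Type} [MeasurableSpace Ω] {μ : Measure Ω} {C : ℝ}
    {g : (comp N L).V → Ω → ℝ} (hC : Good (comp N L) μ C g) (e : N.E) (j : Fin (2 * L + 1)) :
    2 ≤ C * d1 μ (g (lay N L (pt N L e ((j : ℕ) + 1) true)))
      (g (lay N L (pt N L e ((j : ℕ) + 1) false))) := by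
  obtain ⟨x, hx⟩ : ∃ x : (comp N L).V, x = lay N L (pt N L e ((j : ℕ) + 1) true) := ⟨_, rfl⟩
  obtain ⟨y, hy⟩ : ∃ y : (comp N L).V, y = lay N L (pt N L e ((j : ℕ) + 1) false) := ⟨_, rfl⟩
  rw [← hx, ← hy]
  have hj := j.isLt
  have hne : x ≠ y := by
    rw [hx, hy]
    intro h
    have hb := hw_bounds N L (pt N L e ((j : ℕ) + 1) true)
    have hb' := margin_pos N L
    have := col_inj N L (by omega) (by omega) h
    rw [pt_inr, pt_inr] at this
    simpa using (Prod.mk.inj (Prod.mk.inj (Sum.inr.inj this)).2).2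
  have hh : (comp N L).h x = (comp N L).h y := by
    have e1 : ∀ b, compH N L (lay N L (pt N L e ((j : ℕ) + 1) b)) =
        if ((j : ℕ) + 1) % 2 = 0 then margin N L else margin N L + 1 := by
      intro b
      have := hw_bounds N L (pt N L e ((j : ℕ) + 1) b)
      rw [lay, compH_col N L _ _ (by omega), hw_pt N L _ _ (by simp only [steps]; omega)]
    rw [hx, hy]
    exact (e1 true).trans (e1 false).symm
  have hp : (comp N L).Pot fun v => (if v = x then 1 else 0) - (if v = y then 1 else 0) := by
    intro d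
    have hd := (comp N L).grade d
    have h1 : ¬ ((comp N L).src d = x ∧ (comp N L).tgt d = y) := by
      rintro ⟨a, b⟩; rw [a, b] at hd; omega
    have h2 : ¬ ((comp N L).src d = y ∧ (comp N L).tgt d = x) := by
      rintro ⟨a, b⟩; rw [a, b] at hd; omega
    have h3 := (comp N L).src_ne_tgt d
    dsimp only
    split_ifs <;> (try norm_num) <;> simp_all
  have := hC _ hp x y
  simp only [if_true, if_neg hne, if_neg hne.symm] at this
  linarith

/-- The key estimate: in an almost monotone good embedding every ladder is short. -/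
theorem comp_step {D C η : ℝ} (hN : Hard N D) {Ω : Type} [MeasurableSpace Ω] {μ : Measure Ω}
    {g : (comp N L).V → Ω → ℝ} (hg : Lip (comp N L) μ g) (hC : Good (comp N L) μ C g)
    (hη : ∀ e, neg1 μ (g ((comp N L).src e)) (g ((comp N L).tgt e)) ≤ η) :
    D ≤ C - 2 + 8 * η * C + 2 / steps L := by
  have hC0 := hC.pos
  obtain ⟨p, hp⟩ : ∃ p : N.E → ℕ → Bool → Ω → ℝ,
      p = fun e l b => g (lay N L (pt N L e l b)) := ⟨_, rfl⟩
  obtain ⟨ρ, hρ⟩ : ∃ ρ : N.E → ℕ → Ω → ℝ, ρ = fun e l w =>
      if l % 2 = 0 then max (p e l true w) (p e l false w)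
      else min (p e l true w) (p e l false w) := ⟨_, rfl⟩
  have hpi : ∀ e l b, Integrable (p e l b) μ := fun e l b => by rw [hp]; exact hg.int _
  have hρi : ∀ e l, Integrable (ρ e l) μ := by
    intro e l
    by_cases h : l % 2 = 0
    · simp only [hρ, h, if_true]; exact (hpi e l true).sup (hpi e l false)
    · simp only [hρ, h, if_false]; exact (hpi e l true).inf (hpi e l false)
  have hed : ∀ e l b b', l < steps L → d1 μ (p e (hi l) b') (p e (lo l) b) ≤ 1 ∧
      neg1 μ (p e (lo l) b) (p e (hi l) b') ≤ η := by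
    intro e l b b' hl
    rw [hp]
    exact ⟨hg.edge (Sum.inr (e, ⟨l, hl⟩, b, b')), hη (Sum.inr (e, ⟨l, hl⟩, b, b'))⟩
  have hw : ∀ e l, 0 < l → l < steps L → 1 / C ≤ d1 μ (p e l true) (p e l false) / 2 := by
    intro e l h0 hl
    simp only [steps] at hl
    obtain ⟨j, rfl⟩ : ∃ j, l = j + 1 := ⟨l - 1, by omega⟩
    have := twins hC e ⟨j, by omega⟩
    rw [hp]
    dsimp only
    rw [div_le_iff₀ hC0]
    simp only at this
    linarith
  have hstep : ∀ e l, l < steps L → d1 μ (ρ e (l + 1)) (ρ e l) ≤
      1 + 8 * η - d1 μ (p e (l + 1) true) (p e (l + 1) false) / 2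
        - d1 μ (p e l true) (p e l false) / 2 := by
    intro e l hl
    by_cases h : l % 2 = 0
    · have h' : ¬ (l + 1) % 2 = 0 := by omega
      have e1 : hi l = l + 1 := by simp [hi, h]
      have e2 : lo l = l := by simp [lo, h]
      have k := fun b b' => hed e l b b' hl
      rw [e1, e2] at k
      have key := step_d1 (hpi e l true) (hpi e l false) (hpi e (l + 1) true)
        (hpi e (l + 1) false) (η := η) (k true true).1 (k false true).1 (k true false).1
        (k false false).1 (k true true).2 (k true false).2 (k false true).2 (k false false).2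
      simp only [hρ, h, h', if_true, if_false]
      linarith
    · have h' : (l + 1) % 2 = 0 := by omega
      have e1 : hi l = l := by simp [hi, h]
      have e2 : lo l = l + 1 := by simp [lo, h]
      have k := fun b b' => hed e l b b' hl
      rw [e1, e2] at k
      have key := step_d1 (hpi e (l + 1) true) (hpi e (l + 1) false) (hpi e l true)
        (hpi e l false) (η := η) (k true true).1 (k false true).1 (k true false).1
        (k false false).1 (k true true).2 (k true false).2 (k false true).2 (k false false).2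
      simp only [hρ, h, h', if_true, if_false]
      rw [d1_comm]
      linarith
  obtain ⟨q, hq⟩ : ∃ q : ℝ, q = 1 - 2 / C + 8 * η := ⟨_, rfl⟩
  have hM : 2 ≤ steps L := by simp [steps]
  have htot : ∀ e l, 1 ≤ l → l < steps L → d1 μ (ρ e l) (ρ e 0) ≤ l * q + 1 / C := by
    intro e l
    induction l with
    | zero => intro h; omega
    | succ l ih =>
      intro _ hl
      have hb := hstep e l (by omega)
      have hw1 := hw e (l + 1) (by omega) hl
      rcases Nat.eq_zero_or_pos l with rfl | h0
      · have := d1_nonneg (μ := μ) (p e 0 true) (p e 0 false)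
        simp only [Nat.cast_zero, zero_add, Nat.cast_one, one_mul, hq] at *
        have : 2 / C = 1 / C + 1 / C := by ring
        linarith
      · have hw0 := hw e l h0 (by omega)
        have := ih h0 (by omega)
        have := d1_triangle (hρi e (l + 1)) (hρi e l) (hρi e 0)
        have : 2 / C = 1 / C + 1 / C := by ring
        push_cast
        linarith
  have hend : ∀ e, d1 μ (g (lay N L (Sum.inl (N.tgt e)))) (g (lay N L (Sum.inl (N.src e)))) ≤
      steps L * q + 2 / C := by
    intro e
    obtain ⟨l, hl⟩ : ∃ l, steps L = l + 1 := ⟨steps L - 1, by omega⟩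
    have hb := hstep e l (by omega)
    have h1 := htot e l (by omega) (by omega)
    have hw0 := hw e l (by omega) (by omega)
    have h2 := d1_triangle (hρi e (l + 1)) (hρi e l) (hρi e 0)
    have h3 := d1_nonneg (μ := μ) (p e (l + 1) true) (p e (l + 1) false)
    have he : (l + 1) % 2 = 0 := by simp only [steps] at hl; omega
    have r1 : ρ e (l + 1) = g (lay N L (Sum.inl (N.tgt e))) := by
      simp only [hρ, he, if_true]
      rw [hp]
      simp only [← hl, pt_top, max_self]
    have r0 : ρ e 0 = g (lay N L (Sum.inl (N.src e))) := by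
      simp only [hρ, Nat.zero_mod, if_true, hp, pt_zero, max_self]
    rw [r1, r0] at h2
    rw [r1] at hb
    rw [r0] at h1
    have : 2 / C = 1 / C + 1 / C := by ring
    rw [hl]
    push_cast
    linarith
  obtain ⟨K, hK⟩ : ∃ K : ℝ, K = steps L * q + 2 / C := ⟨_, rfl⟩
  have hlift : ∀ φ, N.Pot φ → ∀ u v, (steps L : ℝ) * (φ u - φ v) ≤
      C * d1 μ (g (lay N L (Sum.inl u))) (g (lay N L (Sum.inl v))) := by
    intro φ hφ u v
    have := hC _ (liftPot_pot N L hφ) (lay N L (Sum.inl u)) (lay N L (Sum.inl v))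
    rw [liftPot_lay N L hφ, liftPot_lay N L hφ] at this
    simp only [layPot] at this
    linarith
  have hM0 : (0 : ℝ) < steps L := by exact_mod_cast (show 0 < steps L by omega)
  obtain ⟨e, -⟩ := N.up N.s (by simp [Net.s])
  have hK0 : 0 < K := by
    have h := hlift _ N.pot_h (N.tgt e) (N.src e)
    simp only [N.grade e, Nat.cast_add, Nat.cast_one, add_sub_cancel_left, mul_one] at h
    by_contra hn
    have := hend e
    rw [← hK] at this
    have := mul_nonpos_of_nonneg_of_nonpos hC0.le (this.trans (not_lt.1 hn))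
    linarith
  have := hN Ω _ μ (fun v w => g (lay N L (Sum.inl v)) w / K) (C * K / steps L)
    ⟨fun v => (hg.int _).div_const K, fun e => by
      rw [d1_div _ _ hK0, div_le_one hK0, hK]; exact hend e⟩
    fun φ hφ u v => by
      have := hlift φ hφ u v
      rw [d1_div _ _ hK0, div_mul_div_comm, le_div_iff₀ (mul_pos hM0 hK0)]
      nlinarith [hK0.le]
  refine this.trans (le_of_eq ?_)
  rw [hK, hq]
  field_simp

end Vale.Agent.P235.Low
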