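import Vale.Agent.P235.Low.Tree

/-! # P235, lower bound: the iteration, and passing to simple graphs -/

open MeasureTheory

namespace Vale.Agent.P235.Low

theorem exists_hard {γ : ℝ} (h0 : 0 ≤ γ) (h2 : γ < 2) :
    ∀ m : ℕ, ∃ N : Net, Hard N (1 + γ * m) ∧ Nonempty (TD N (4 + 2 * m))
  | 0 => ⟨edgeNet, by simpa using edgeNet_hard, edge_td _ (by norm_num)⟩
  | m + 1 => by
    obtain ⟨N, hN, ⟨P⟩⟩ := exists_hard h0 h2 m
    obtain ⟨L, k, hk⟩ := hard_step (by positivity) hN h0 h2
    obtain ⟨Q⟩ := comp_td L (by omega) P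
    refine ⟨slash (comp N L) k, ?_, slash_td (by omega) Q k⟩
    rw [Nat.cast_add, Nat.cast_one, mul_add, mul_one, ← add_assoc]
    exact hk

/-- The simple graph underlying a net. -/
def Net.graph (N : Net) : SimpleGraph N.V :=
  SimpleGraph.fromRel fun u v => ∃ e, N.src e = u ∧ N.tgt e = v

theorem Net.adj (N : Net) (e : N.E) : N.graph.Adj (N.src e) (N.tgt e) :=
  ⟨N.src_ne_tgt e, Or.inl ⟨e, rfl, rfl⟩⟩

theorem Net.connected (N : Net) : N.graph.Connected := by
  have key : ∀ k v, N.h v = k → N.graph.Reachable N.s v := by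
    intro k
    induction k using Nat.strong_induction_on with
    | _ k ih =>
      intro v hv
      by_cases hvs : v = N.s
      · subst hvs; exact .refl _
      · obtain ⟨e, he⟩ := N.down v hvs
        have hg := N.grade e
        rw [he] at hg
        exact (ih (N.h (N.src e)) (by omega) _ rfl).trans (he ▸ (N.adj e).reachable)
  exact ⟨fun u v => (key _ u rfl).symm.trans (key _ v rfl)⟩

theorem pot_dist (N : Net) {φ : N.V → ℝ} (hφ : N.Pot φ) (u v : N.V) :
    φ u - φ v ≤ N.graph.dist u v := by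
  have key : ∀ {a b : N.V} (w : N.graph.Walk a b), φ a - φ b ≤ w.length := by
    intro a b w
    induction w with
    | nil => simp
    | @cons x y z hxy p ih =>
      have : φ x - φ y ≤ 1 := by
        rcases hxy with ⟨-, ⟨e, rfl, rfl⟩ | ⟨e, rfl, rfl⟩⟩
        · linarith [(abs_le.1 (hφ e)).1]
        · linarith [(abs_le.1 (hφ e)).2]
      simp only [SimpleGraph.Walk.length_cons, Nat.cast_add, Nat.cast_one]
      linarith
  obtain ⟨w, hw⟩ := N.connected.exists_walk_length_eq_dist u v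
  rw [← hw]; exact key w

theorem td_tree {N : Net} {k : ℕ} (P : TD N k) :
    ∃ (ι : Type) (_ : Fintype ι) (T : SimpleGraph ι) (B : ι → Finset N.V), T.IsTree ∧
      (∀ i, (B i).card ≤ k + 1) ∧ (∀ u v, N.graph.Adj u v → ∃ i, u ∈ B i ∧ v ∈ B i) ∧
      (∀ v, (T.induce {i | v ∈ B i}).Connected) := by
  classical
  obtain ⟨T, hT⟩ : ∃ T : SimpleGraph P.ι,
      T = SimpleGraph.fromRel fun i j => i ≠ P.root ∧ P.par i = j := ⟨_, rfl⟩
  have hne : ∀ i, i ≠ P.root → i ≠ P.par i := fun i hi h => by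
    have := P.rank_lt i hi; rw [← h] at this; omega
  have hadj : ∀ i, i ≠ P.root → T.Adj i (P.par i) := fun i hi => by
    rw [hT]; exact ⟨hne i hi, Or.inl ⟨hi, rfl⟩⟩
  have hreach : ∀ r i, P.rank i = r → T.Reachable i P.root := by
    intro r
    induction r using Nat.strong_induction_on with
    | _ r ih =>
      intro i hi
      by_cases h : i = P.root
      · rw [h]
      · exact (hadj i h).reachable.trans (ih _ (hi ▸ P.rank_lt i h) _ rfl)
  have hconn : T.Connected := by
    haveI : Nonempty P.ι := ⟨P.root⟩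
    exact ⟨fun i j => (hreach _ i rfl).trans (hreach _ j rfl).symm⟩
  have hedges : T.edgeSet = (fun i => s(i, P.par i)) '' {i | i ≠ P.root} := by
    ext z
    induction z using Sym2.ind with
    | _ a b =>
      simp only [SimpleGraph.mem_edgeSet, Set.mem_image, Set.mem_setOf_eq, hT,
        SimpleGraph.fromRel_adj, Sym2.eq_iff]
      constructor
      · rintro ⟨-, ⟨h, rfl⟩ | ⟨h, rfl⟩⟩
        · exact ⟨a, h, Or.inl ⟨rfl, rfl⟩⟩
        · exact ⟨b, h, Or.inr ⟨rfl, rfl⟩⟩
      · rintro ⟨i, hi, ⟨rfl, rfl⟩ | ⟨rfl, rfl⟩⟩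
        · exact ⟨hne i hi, Or.inl ⟨hi, rfl⟩⟩
        · exact ⟨(hne i hi).symm, Or.inr ⟨hi, rfl⟩⟩
  have hinj : Set.InjOn (fun i => s(i, P.par i)) {i | i ≠ P.root} := by
    intro i hi j hj h
    rcases Sym2.eq_iff.1 h with ⟨h1, -⟩ | ⟨h1, h2⟩
    · exact h1
    · have a := P.rank_lt i hi
      have b := P.rank_lt j hj
      rw [h2] at a; rw [← h1] at b; omega
  have htree : T.IsTree := by
    rw [SimpleGraph.isTree_iff_connected_and_card]
    refine ⟨hconn, ?_⟩
    rw [hedges, Nat.card_coe_set_eq, hinj.ncard_image]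
    have : {i | i ≠ P.root} = (Set.univ : Set P.ι) \ {P.root} := by ext; simp
    rw [this, Set.ncard_diff_singleton_add_one (Set.mem_univ _) Set.finite_univ, Set.ncard_univ]
  refine ⟨P.ι, P.fin, T, P.bag, htree, P.card_le, ?_, ?_⟩
  · rintro u v ⟨-, ⟨e, rfl, rfl⟩ | ⟨e, rfl, rfl⟩⟩
    · exact ⟨P.host e, P.host_src e, P.host_tgt e⟩
    · exact ⟨P.host e, P.host_tgt e, P.host_src e⟩
  · intro v
    have key : ∀ r i (hi : v ∈ P.bag i), P.rank i = r →
        (T.induce {i | v ∈ P.bag i}).Reachable ⟨i, hi⟩ ⟨P.home v, P.home_mem v⟩ := by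
      intro r
      induction r using Nat.strong_induction_on with
      | _ r ih =>
        intro i hi hr
        by_cases h : i = P.home v
        · subst h; exact .refl _
        · obtain ⟨h1, h2⟩ := P.conn v i hi h
          have e : (T.induce {i | v ∈ P.bag i}).Adj ⟨i, hi⟩ ⟨P.par i, h2⟩ := hadj i h1
          exact e.reachable.trans (ih _ (hr ▸ P.rank_lt i h1) _ h2 rfl)
    haveI : Nonempty {i | v ∈ P.bag i} := ⟨⟨P.home v, P.home_mem v⟩⟩
    exact ⟨fun a b => (key _ a.1 a.2 rfl).trans (key _ b.1 b.2 rfl).symm⟩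

theorem hard_graph {N : Net} {D : ℝ} (hN : Hard N D) (Ω : Type) [MeasurableSpace Ω]
    (μ : Measure Ω) (f : N.V → Lp ℝ 1 μ) (C : ℝ)
    (hf : ∀ x y, (N.graph.dist x y : ℝ) ≤ ‖f x - f y‖ ∧ ‖f x - f y‖ ≤ C * N.graph.dist x y) :
    D ≤ C := by
  obtain ⟨e, -⟩ := N.up N.s (by simp [Net.s])
  have hd : ∀ e, N.graph.dist (N.tgt e) (N.src e) = 1 := fun e =>
    SimpleGraph.dist_eq_one_iff_adj.2 (N.adj e).symm
  have hC : 0 < C := by
    have := hf (N.tgt e) (N.src e)
    simp only [hd e, Nat.cast_one, mul_one] at this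
    linarith [this.1, this.2]
  have hnorm : ∀ u v, ‖f u - f v‖ = d1 μ (f u) (f v) := by
    intro u v
    rw [L1.norm_eq_integral_norm]
    unfold d1
    refine integral_congr_ae ?_
    filter_upwards [Lp.coeFn_sub (f u) (f v)] with x hx
    rw [hx, Real.norm_eq_abs]
    rfl
  have := hN Ω _ μ (fun v x => f v x / C) C
    ⟨fun v => (L1.integrable_coeFn (f v)).div_const C, fun e => by
      rw [d1_div _ _ hC, ← hnorm, div_le_one hC]
      have := (hf (N.tgt e) (N.src e)).2
      simpa [hd e] using this⟩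
    fun φ hφ u v => by
      rw [d1_div _ _ hC, ← hnorm, mul_div_cancel₀ _ hC.ne']
      exact (pot_dist N hφ u v).trans (hf u v).1
  exact this

end Vale.Agent.P235.Low
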