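import Vale.Agent.P235.Low.Net

/-! # P235, lower bound: almost monotone embeddings and one step of a ladder -/

open MeasureTheory

namespace Vale.Agent.P235.Low

variable {Ω : Type} [MeasurableSpace Ω] {μ : Measure Ω}

/-- The `L¹` size of the part of `b - a` below zero. -/
noncomputable def neg1 (μ : Measure Ω) (a b : Ω → ℝ) : ℝ := ∫ x, max (a x - b x) 0 ∂μ

theorem int_neg1 {a b : Ω → ℝ} (ha : Integrable a μ) (hb : Integrable b μ) :
    Integrable (fun x => max (a x - b x) 0) μ :=
  (ha.sub hb).pos_part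

/-- A nearly isometric image of the pair source, sink can be made almost monotone along every edge
by changing signs pointwise. -/
theorem exists_mono {N : Net} {C ε : ℝ} {g : N.V → Ω → ℝ} (hg : Lip N μ g)
    (hC : Good N μ C g) (hε : (1 - ε) * N.T < d1 μ (g N.t) (g N.s)) :
    ∃ g', Lip N μ g' ∧ Good N μ C g' ∧ ∀ e, neg1 μ (g' (N.src e)) (g' (N.tgt e)) ≤ ε * N.T := by
  classical
  have hd : AEMeasurable (fun x => g N.t x - g N.s x) μ :=
    ((hg.int N.t).sub (hg.int N.s)).aemeasurable
  obtain ⟨σ, hσdef⟩ : ∃ σ : Ω → ℝ, σ = fun x => if 0 ≤ g N.t x - g N.s x then 1 else -1 :=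
    ⟨_, rfl⟩
  have hσm : AEStronglyMeasurable σ μ := by
    have hm : Measurable fun r : ℝ => if 0 ≤ r then (1 : ℝ) else -1 :=
      Measurable.ite measurableSet_Ici measurable_const measurable_const
    rw [hσdef]
    exact (hm.comp_aemeasurable hd).aestronglyMeasurable
  have hσabs : ∀ x, |σ x| = 1 := by
    intro x; rw [hσdef]; dsimp only; split_ifs <;> simp
  obtain ⟨g', hg'def⟩ : ∃ g' : N.V → Ω → ℝ, g' = fun v x => σ x * g v x := ⟨_, rfl⟩
  have hint : ∀ v, Integrable (g' v) μ := by
    intro v
    rw [hg'def]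
    exact (hg.int v).bdd_mul (c := 1) hσm (Filter.Eventually.of_forall fun x => by
      rw [Real.norm_eq_abs, hσabs])
  have hd1 : ∀ u v, d1 μ (g' u) (g' v) = d1 μ (g u) (g v) := by
    intro u v
    simp only [d1, hg'def, ← mul_sub, abs_mul, hσabs, one_mul]
  refine ⟨g', ⟨hint, fun e => by rw [hd1]; exact hg.edge e⟩,
    fun φ hφ u v => by rw [hd1]; exact hC φ hφ u v, fun e => ?_⟩
  have h1 := hg.from_s (N.src e)
  have h2 := hg.edge e
  have h3 := hg.to_t (N.tgt e)
  rw [N.grade e, Nat.cast_add, Nat.cast_one] at h3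
  rw [← hd1] at h1 h2 h3 hε
  have hpt : ∀ x, |g' N.t x - g' N.s x| + 2 * max (g' (N.src e) x - g' (N.tgt e) x) 0 ≤
      |g' (N.src e) x - g' N.s x| + |g' (N.tgt e) x - g' (N.src e) x| +
        |g' N.t x - g' (N.tgt e) x| := by
    intro x
    have h0 : 0 ≤ g' N.t x - g' N.s x := by
      simp only [hg'def, hσdef]
      split_ifs with hx <;> linarith
    rw [abs_of_nonneg h0]
    rcases le_total (g' (N.src e) x) (g' (N.tgt e) x) with hle | hle
    · rw [max_eq_right (sub_nonpos.2 hle), abs_of_nonneg (sub_nonneg.2 hle)]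
      linarith [le_abs_self (g' (N.src e) x - g' N.s x), le_abs_self (g' N.t x - g' (N.tgt e) x)]
    · rw [max_eq_left (sub_nonneg.2 hle), abs_of_nonpos (sub_nonpos.2 hle)]
      linarith [le_abs_self (g' (N.src e) x - g' N.s x), le_abs_self (g' N.t x - g' (N.tgt e) x)]
  have i1 := int_abs_sub (hint N.t) (hint N.s)
  have i2 := (int_neg1 (hint (N.src e)) (hint (N.tgt e))).const_mul 2
  have i3 := int_abs_sub (hint (N.src e)) (hint N.s)
  have i4 := int_abs_sub (hint (N.tgt e)) (hint (N.src e))
  have i5 := int_abs_sub (hint N.t) (hint (N.tgt e))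
  have hI := integral_mono (i1.add i2) ((i3.add i4).add i5) hpt
  simp only [Pi.add_apply] at hI
  rw [integral_add i1 i2, integral_add
    (f := fun x => |g' (N.src e) x - g' N.s x| + |g' (N.tgt e) x - g' (N.src e) x|)
    (i3.add i4) i5, integral_const_mul, integral_add i3 i4] at hI
  have h6 : 2 * neg1 μ (g' (N.src e)) (g' (N.tgt e)) ≤ ε * N.T := by
    unfold d1 at h1 h2 h3 hε
    unfold neg1
    linarith
  have h7 : 0 ≤ neg1 μ (g' (N.src e)) (g' (N.tgt e)) :=
    integral_nonneg fun x => le_max_right _ _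
  linarith

theorem step_pointwise (a b x y : ℝ) :
    |min x y - max a b| ≤ (|x - a| + |x - b| + |y - a| + |y - b|) / 4 - |x - y| / 2 - |a - b| / 2
      + 2 * (max (a - x) 0 + max (a - y) 0 + max (b - x) 0 + max (b - y) 0) := by
  have e1 := le_abs_self (x - a)
  have e2 := le_abs_self (x - b)
  have e3 := le_abs_self (y - a)
  have e4 := le_abs_self (y - b)
  have p1 := le_max_left (a - x) 0
  have p2 := le_max_left (a - y) 0
  have p3 := le_max_left (b - x) 0
  have p4 := le_max_left (b - y) 0
  have q1 := le_max_right (a - x) 0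
  have q2 := le_max_right (a - y) 0
  have q3 := le_max_right (b - x) 0
  have q4 := le_max_right (b - y) 0
  rw [abs_sub_le_iff]
  rcases le_total x y with hxy | hxy <;> rcases le_total a b with hab | hab
  · rw [min_eq_left hxy, max_eq_right hab, abs_of_nonpos (sub_nonpos.2 hxy),
      abs_of_nonpos (sub_nonpos.2 hab)]
    constructor <;> linarith
  · rw [min_eq_left hxy, max_eq_left hab, abs_of_nonpos (sub_nonpos.2 hxy),
      abs_of_nonneg (sub_nonneg.2 hab)]
    constructor <;> linarith
  · rw [min_eq_right hxy, max_eq_right hab, abs_of_nonneg (sub_nonneg.2 hxy),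
      abs_of_nonpos (sub_nonpos.2 hab)]
    constructor <;> linarith
  · rw [min_eq_right hxy, max_eq_left hab, abs_of_nonneg (sub_nonneg.2 hxy),
      abs_of_nonneg (sub_nonneg.2 hab)]
    constructor <;> linarith

/-- Between two completely joined pairs, the reference point moves by at most one minus half the
widths of the pairs. -/
theorem step_d1 {a b x y : Ω → ℝ} (ha : Integrable a μ) (hb : Integrable b μ)
    (hx : Integrable x μ) (hy : Integrable y μ) {η : ℝ}
    (h1 : d1 μ x a ≤ 1) (h2 : d1 μ x b ≤ 1) (h3 : d1 μ y a ≤ 1) (h4 : d1 μ y b ≤ 1)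
    (n1 : neg1 μ a x ≤ η) (n2 : neg1 μ a y ≤ η) (n3 : neg1 μ b x ≤ η) (n4 : neg1 μ b y ≤ η) :
    d1 μ (fun w => min (x w) (y w)) (fun w => max (a w) (b w)) ≤
      1 - d1 μ x y / 2 - d1 μ a b / 2 + 8 * η := by
  have il := int_abs_sub (hx.inf hy) (ha.sup hb)
  have i1 := int_abs_sub hx ha
  have i2 := int_abs_sub hx hb
  have i3 := int_abs_sub hy ha
  have i4 := int_abs_sub hy hb
  have i5 := int_abs_sub hx hy
  have i6 := int_abs_sub ha hb
  have m1 := int_neg1 ha hx
  have m2 := int_neg1 ha hy
  have m3 := int_neg1 hb hx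
  have m4 := int_neg1 hb hy
  have s4 : Integrable (fun w => |x w - a w| + |x w - b w| + |y w - a w| + |y w - b w|) μ :=
    ((i1.add i2).add i3).add i4
  have sm : Integrable (fun w => max (a w - x w) 0 + max (a w - y w) 0 + max (b w - x w) 0
      + max (b w - y w) 0) μ := ((m1.add m2).add m3).add m4
  have A : Integrable (fun w => (|x w - a w| + |x w - b w| + |y w - a w| + |y w - b w|) / 4
      - |x w - y w| / 2) μ := (s4.div_const 4).sub (i5.div_const 2)
  have B : Integrable (fun w => (|x w - a w| + |x w - b w| + |y w - a w| + |y w - b w|) / 4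
      - |x w - y w| / 2 - |a w - b w| / 2) μ := A.sub (i6.div_const 2)
  have hI : (∫ w, |min (x w) (y w) - max (a w) (b w)| ∂μ) ≤
      ∫ w, ((|x w - a w| + |x w - b w| + |y w - a w| + |y w - b w|) / 4 - |x w - y w| / 2
        - |a w - b w| / 2 + 2 * (max (a w - x w) 0 + max (a w - y w) 0 + max (b w - x w) 0
        + max (b w - y w) 0)) ∂μ :=
    integral_mono il (B.add (sm.const_mul 2)) fun w => step_pointwise _ _ _ _
  rw [integral_add B (sm.const_mul 2), integral_sub A (i6.div_const 2),
    integral_sub (s4.div_const 4) (i5.div_const 2), integral_div, integral_div, integral_div,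
    integral_const_mul,
    integral_add (f := fun w => |x w - a w| + |x w - b w| + |y w - a w|) ((i1.add i2).add i3) i4,
    integral_add (f := fun w => |x w - a w| + |x w - b w|) (i1.add i2) i3, integral_add i1 i2,
    integral_add (f := fun w => max (a w - x w) 0 + max (a w - y w) 0 + max (b w - x w) 0)
      ((m1.add m2).add m3) m4,
    integral_add (f := fun w => max (a w - x w) 0 + max (a w - y w) 0) (m1.add m2) m3,
    integral_add m1 m2] at hI
  unfold d1 at *
  unfold neg1 at *
  linarith

end Vale.Agent.P235.Low
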