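import Mathlib

/-! # P235, lower bound: graded two-terminal multigraphs and embeddings into `L¹` -/

open MeasureTheory

namespace Vale.Agent.P235.Low

/-- A graded two-terminal multigraph: source `inl false` at height `0`, sink `inl true` at height
`T`, edges go up one level, every vertex other than the source has an edge below it and every
vertex other than the sink an edge above it. -/
structure Net where
  I : Type
  E : Type
  fI : Fintype I
  dI : DecidableEq I
  fE : Fintype E
  dE : DecidableEq E
  T : ℕ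
  T_pos : 0 < T
  src : E → Bool ⊕ I
  tgt : E → Bool ⊕ I
  h : Bool ⊕ I → ℕ
  h_s : h (Sum.inl false) = 0
  h_t : h (Sum.inl true) = T
  h_le : ∀ v, h v ≤ T
  grade : ∀ e, h (tgt e) = h (src e) + 1
  down : ∀ v, v ≠ Sum.inl false → ∃ e, tgt e = v
  up : ∀ v, v ≠ Sum.inl true → ∃ e, src e = v

attribute [instance] Net.fI Net.dI Net.fE Net.dE

/-- The vertices of a net. -/
abbrev Net.V (N : Net) : Type := Bool ⊕ N.I

/-- The source. -/
def Net.s (N : Net) : N.V := Sum.inl false

/-- The sink. -/
def Net.t (N : Net) : N.V := Sum.inl true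

theorem Net.src_ne_tgt (N : Net) (e : N.E) : N.src e ≠ N.tgt e := by
  intro h
  have := N.grade e
  rw [h] at this
  omega

/-- A potential changing by at most `1` along every edge. -/
def Net.Pot (N : Net) (φ : N.V → ℝ) : Prop := ∀ e, |φ (N.tgt e) - φ (N.src e)| ≤ 1

section

variable {Ω : Type} [MeasurableSpace Ω] {μ : Measure Ω}

/-- The `L¹` distance of two functions. -/
noncomputable def d1 (μ : Measure Ω) (a b : Ω → ℝ) : ℝ := ∫ x, |a x - b x| ∂μ

theorem int_abs_sub {a b : Ω → ℝ} (ha : Integrable a μ) (hb : Integrable b μ) :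
    Integrable (fun x => |a x - b x|) μ :=
  (ha.sub hb).abs

theorem d1_comm (a b : Ω → ℝ) : d1 μ a b = d1 μ b a := by
  simp only [d1, abs_sub_comm]

theorem d1_nonneg (a b : Ω → ℝ) : 0 ≤ d1 μ a b := integral_nonneg fun _ => abs_nonneg _

theorem d1_self (a : Ω → ℝ) : d1 μ a a = 0 := by simp [d1]

theorem d1_triangle {a b c : Ω → ℝ} (ha : Integrable a μ) (hb : Integrable b μ)
    (hc : Integrable c μ) : d1 μ a c ≤ d1 μ a b + d1 μ b c := by
  unfold d1
  rw [← integral_add (int_abs_sub ha hb) (int_abs_sub hb hc)]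
  exact integral_mono (int_abs_sub ha hc) ((int_abs_sub ha hb).add (int_abs_sub hb hc))
    fun x => abs_sub_le _ _ _

theorem d1_div (a b : Ω → ℝ) {q : ℝ} (hq : 0 < q) :
    d1 μ (fun x => a x / q) (fun x => b x / q) = d1 μ a b / q := by
  simp only [d1, ← sub_div, abs_div, abs_of_pos hq, integral_div]

variable {N : Net}

/-- An embedding expanding no edge beyond `1`. -/
structure Lip (N : Net) (μ : Measure Ω) (f : N.V → Ω → ℝ) : Prop where
  int : ∀ v, Integrable (f v) μ
  edge : ∀ e, d1 μ (f (N.tgt e)) (f (N.src e)) ≤ 1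

/-- No potential difference exceeds `C` times the `L¹` distance. -/
def Good (N : Net) (μ : Measure Ω) (C : ℝ) (f : N.V → Ω → ℝ) : Prop :=
  ∀ φ, N.Pot φ → ∀ u v, φ u - φ v ≤ C * d1 μ (f u) (f v)

/-- A Lipschitz embedding moves a vertex from the source by at most its height. -/
theorem Lip.from_s {f : N.V → Ω → ℝ} (hf : Lip N μ f) :
    ∀ v, d1 μ (f v) (f N.s) ≤ N.h v := by
  suffices ∀ k v, N.h v = k → d1 μ (f v) (f N.s) ≤ k from fun v => this _ v rfl
  intro k
  induction k with
  | zero =>
    intro v hv
    by_cases hvs : v = N.s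
    · subst hvs; simp [d1_self]
    · obtain ⟨e, he⟩ := N.down v hvs
      have := N.grade e
      rw [he] at this; omega
  | succ k ih =>
    intro v hv
    by_cases hvs : v = N.s
    · subst hvs
      rw [d1_self]; positivity
    · obtain ⟨e, he⟩ := N.down v hvs
      have hg := N.grade e
      rw [he, hv] at hg
      have h1 := ih (N.src e) (by omega)
      have h2 := hf.edge e
      rw [he] at h2
      have := d1_triangle (hf.int v) (hf.int (N.src e)) (hf.int N.s)
      push_cast
      linarith

/-- A Lipschitz embedding moves a vertex from the sink by at most its depth. -/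
theorem Lip.to_t {f : N.V → Ω → ℝ} (hf : Lip N μ f) :
    ∀ v, d1 μ (f N.t) (f v) ≤ (N.T : ℝ) - N.h v := by
  suffices ∀ k v, N.T - N.h v = k → d1 μ (f N.t) (f v) ≤ k by
    intro v
    have := this _ v rfl
    rwa [Nat.cast_sub (N.h_le v)] at this
  intro k
  induction k with
  | zero =>
    intro v hv
    by_cases hvt : v = N.t
    · subst hvt; simp [d1_self]
    · obtain ⟨e, he⟩ := N.up v hvt
      have := N.grade e
      have := N.h_le (N.tgt e)
      rw [he] at *
      omega
  | succ k ih =>
    intro v hv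
    by_cases hvt : v = N.t
    · subst hvt
      rw [d1_self]; positivity
    · obtain ⟨e, he⟩ := N.up v hvt
      have hg := N.grade e
      rw [he] at hg
      have h1 := ih (N.tgt e) (by omega)
      have h2 := hf.edge e
      rw [he] at h2
      have := d1_triangle (hf.int N.t) (hf.int (N.tgt e)) (hf.int v)
      push_cast
      linarith

end

/-- The height is a potential. -/
theorem Net.pot_h (N : Net) : N.Pot (fun v => (N.h v : ℝ)) := by
  intro e
  simp [N.grade e]

theorem Good.T_le {Ω : Type} [MeasurableSpace Ω] {μ : Measure Ω} {N : Net} {C : ℝ}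
    {f : N.V → Ω → ℝ} (hC : Good N μ C f) : (N.T : ℝ) ≤ C * d1 μ (f N.t) (f N.s) := by
  have := hC _ N.pot_h N.t N.s
  simpa [Net.t, Net.s, N.h_s, N.h_t] using this

theorem Good.pos {Ω : Type} [MeasurableSpace Ω] {μ : Measure Ω} {N : Net} {C : ℝ}
    {f : N.V → Ω → ℝ} (hC : Good N μ C f) : 0 < C := by
  have h1 := hC.T_le
  have h2 : (0 : ℝ) < N.T := by exact_mod_cast N.T_pos
  by_contra h
  have := mul_nonpos_of_nonpos_of_nonneg (not_lt.1 h) (d1_nonneg (μ := μ) (f N.t) (f N.s))
  linarith

/-- Every edge-nonexpanding embedding into `L¹` has distortion at least `D`. -/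
def Hard (N : Net) (D : ℝ) : Prop :=
  ∀ (Ω : Type) (_ : MeasurableSpace Ω) (μ : Measure Ω) (f : N.V → Ω → ℝ) (C : ℝ),
    Lip N μ f → Good N μ C f → D ≤ C

/-- The single edge. -/
def edgeNet : Net where
  I := Empty
  E := Unit
  fI := inferInstance
  dI := inferInstance
  fE := inferInstance
  dE := inferInstance
  T := 1
  T_pos := Nat.one_pos
  src _ := Sum.inl false
  tgt _ := Sum.inl true
  h := Sum.elim (fun b => if b then 1 else 0) Empty.elim
  h_s := rfl
  h_t := rfl
  h_le := by
    rintro (b | x)
    · cases b <;> simp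
    · exact x.elim
  grade _ := rfl
  down := by
    rintro (b | x) hv
    · cases b
      · exact absurd rfl hv
      · exact ⟨(), rfl⟩
    · exact x.elim
  up := by
    rintro (b | x) hv
    · cases b
      · exact ⟨(), rfl⟩
      · exact absurd rfl hv
    · exact x.elim

theorem edgeNet_hard : Hard edgeNet 1 := by
  intro Ω _ μ f C hf hC
  have h1 := hC.T_le
  have hp := hC.pos
  have h2 := hf.edge ()
  have h3 : C * d1 μ (f edgeNet.t) (f edgeNet.s) ≤ C * 1 :=
    mul_le_mul_of_nonneg_left h2 hp.le
  simp only [edgeNet, Nat.cast_one] at h1 h3 ⊢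
  linarith

end Vale.Agent.P235.Low
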