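import Vale.Agent.P235.Low.Comp

/-! # P235, lower bound: slash powers turn monotone hardness into hardness -/

open MeasureTheory

namespace Vale.Agent.P235.Low

/-- An old vertex among those of a replacement. -/
def top (A B : Net) : A.V → Bool ⊕ (A.I ⊕ (A.E × B.I)) :=
  Sum.elim Sum.inl fun i => Sum.inr (Sum.inl i)

/-- The copy of a vertex of `B` in the edge `e` of `A`. -/
def emb (A B : Net) (e : A.E) : B.V → Bool ⊕ (A.I ⊕ (A.E × B.I)) :=
  Sum.elim (fun b => if b then top A B (A.tgt e) else top A B (A.src e))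
    fun i => Sum.inr (Sum.inr (e, i))

/-- A function on the vertices of a replacement glued from its values on the old vertices and on
the copies. -/
def glue {α : Type} (A B : Net) (φ : A.V → α) (ψ : A.E → B.V → α) :
    Bool ⊕ (A.I ⊕ (A.E × B.I)) → α :=
  Sum.elim (fun b => φ (Sum.inl b))
    (Sum.elim (fun i => φ (Sum.inr i)) fun p => ψ p.1 (Sum.inr p.2))

theorem glue_top {α : Type} (A B : Net) (φ : A.V → α) (ψ : A.E → B.V → α) (v : A.V) :
    glue A B φ ψ (top A B v) = φ v := by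
  rcases v with b | i <;> rfl

theorem glue_emb {α : Type} (A B : Net) (φ : A.V → α) (ψ : A.E → B.V → α)
    (hs : ∀ e, ψ e B.s = φ (A.src e)) (ht : ∀ e, ψ e B.t = φ (A.tgt e)) (e : A.E) (v : B.V) :
    glue A B φ ψ (emb A B e v) = ψ e v := by
  rcases v with b | i
  · cases b
    · exact (glue_top A B φ ψ _).trans (hs e).symm
    · exact (glue_top A B φ ψ _).trans (ht e).symm
  · rfl

/-- Height in a replacement. -/
def replH (A B : Net) : Bool ⊕ (A.I ⊕ (A.E × B.I)) → ℕ :=
  glue A B (fun v => B.T * A.h v) fun e v => B.T * A.h (A.src e) + B.h v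

theorem replH_emb (A B : Net) (e : A.E) (v : B.V) :
    replH A B (emb A B e v) = B.T * A.h (A.src e) + B.h v :=
  glue_emb A B (fun v => B.T * A.h v) (fun e v => B.T * A.h (A.src e) + B.h v)
    (fun e => by simp [Net.s, B.h_s]) (fun e => by simp [Net.t, B.h_t, A.grade e, mul_add]) e v

/-- Replace every edge of `A` by a copy of `B`. -/
noncomputable def repl (A B : Net) : Net where
  I := A.I ⊕ (A.E × B.I)
  E := A.E × B.E
  fI := inferInstance
  dI := inferInstance
  fE := inferInstance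
  dE := Classical.decEq _
  T := B.T * A.T
  T_pos := Nat.mul_pos B.T_pos A.T_pos
  src p := emb A B p.1 (B.src p.2)
  tgt p := emb A B p.1 (B.tgt p.2)
  h := replH A B
  h_s := by simp [replH, glue, A.h_s]
  h_t := by simp [replH, glue, A.h_t]
  h_le := by
    rintro (b | i | p)
    · exact Nat.mul_le_mul_left _ (A.h_le _)
    · exact Nat.mul_le_mul_left _ (A.h_le _)
    · show B.T * A.h (A.src p.1) + B.h (Sum.inr p.2) ≤ B.T * A.T
      calc _ ≤ B.T * A.h (A.src p.1) + B.T := Nat.add_le_add_left (B.h_le _) _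
        _ = B.T * A.h (A.tgt p.1) := by rw [A.grade, mul_add, mul_one]
        _ ≤ _ := Nat.mul_le_mul_left _ (A.h_le _)
  grade p := by rw [replH_emb, replH_emb, B.grade]; omega
  down := by
    rintro (b | i | ⟨e, i⟩) hv
    · cases b
      · exact absurd rfl hv
      · obtain ⟨e, he⟩ := A.down A.t (by simp [Net.t])
        obtain ⟨d, hd⟩ := B.down B.t (by simp [Net.t])
        exact ⟨(e, d), by rw [hd]; simp [emb, Net.t, he, top]⟩
    · obtain ⟨e, he⟩ := A.down (Sum.inr i) (by simp)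
      obtain ⟨d, hd⟩ := B.down B.t (by simp [Net.t])
      exact ⟨(e, d), by rw [hd]; simp [emb, Net.t, he, top]⟩
    · obtain ⟨d, hd⟩ := B.down (Sum.inr i) (by simp)
      exact ⟨(e, d), by rw [hd]; simp [emb]⟩
  up := by
    rintro (b | i | ⟨e, i⟩) hv
    · cases b
      · obtain ⟨e, he⟩ := A.up A.s (by simp [Net.s])
        obtain ⟨d, hd⟩ := B.up B.s (by simp [Net.s])
        exact ⟨(e, d), by rw [hd]; simp [emb, Net.s, he, top]⟩
      · exact absurd rfl hv
    · obtain ⟨e, he⟩ := A.up (Sum.inr i) (by simp)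
      obtain ⟨d, hd⟩ := B.up B.s (by simp [Net.s])
      exact ⟨(e, d), by rw [hd]; simp [emb, Net.s, he, top]⟩
    · obtain ⟨d, hd⟩ := B.up (Sum.inr i) (by simp)
      exact ⟨(e, d), by rw [hd]; simp [emb]⟩

theorem glue_pot (A B : Net) (φ : A.V → ℝ) (ψ : A.E → B.V → ℝ)
    (hs : ∀ e, ψ e B.s = φ (A.src e)) (ht : ∀ e, ψ e B.t = φ (A.tgt e))
    (hψ : ∀ e, B.Pot (ψ e)) : (repl A B).Pot (glue A B φ ψ) := by
  intro p
  show |glue A B φ ψ (emb A B p.1 (B.tgt p.2)) - glue A B φ ψ (emb A B p.1 (B.src p.2))| ≤ 1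
  rw [glue_emb A B φ ψ hs ht, glue_emb A B φ ψ hs ht]
  exact hψ p.1 p.2

/-- Interpolation along a net. -/
noncomputable def interp (B : Net) (a b : ℝ) (v : B.V) : ℝ := a + B.h v * ((b - a) / B.T)

theorem interp_spec (B : Net) {a b : ℝ} (hab : |b - a| ≤ B.T) :
    interp B a b B.s = a ∧ interp B a b B.t = b ∧ B.Pot (interp B a b) := by
  have hT : (0 : ℝ) < B.T := by exact_mod_cast B.T_pos
  refine ⟨by simp [interp, Net.s, B.h_s], ?_, ?_⟩
  · simp only [interp, Net.t, B.h_t]
    field_simp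
    ring
  · intro e
    simp only [interp, B.grade e, Nat.cast_add, Nat.cast_one]
    rw [show a + ((B.h (B.src e) : ℝ) + 1) * ((b - a) / B.T) - (a + B.h (B.src e) * ((b - a) / B.T))
      = (b - a) / B.T by ring, abs_div, abs_of_pos hT, div_le_one hT]
    exact hab

variable {Ω : Type} [MeasurableSpace Ω] {μ : Measure Ω}

theorem lip_copy {A B : Net} {f : (repl A B).V → Ω → ℝ} (hf : Lip (repl A B) μ f) (e : A.E) :
    Lip B μ fun v => f (emb A B e v) :=
  ⟨fun _ => hf.int _, fun d => hf.edge (e, d)⟩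

/-- Copies are isometric in a replacement. -/
theorem good_copy {A B : Net} {C : ℝ} {f : (repl A B).V → Ω → ℝ}
    (hC : Good (repl A B) μ C f) (e : A.E) : Good B μ C fun v => f (emb A B e v) := by
  classical
  intro ψ hψ u v
  obtain ⟨a, ha⟩ : ∃ a, a = A.src e := ⟨_, rfl⟩
  obtain ⟨b, hb⟩ : ∃ b, b = A.tgt e := ⟨_, rfl⟩
  have hab : a ≠ b := ha ▸ hb ▸ A.src_ne_tgt e
  have hr : |ψ B.t - ψ B.s| ≤ B.T := (hψ.from_s B.t).trans (by simp [Net.t, B.h_t])
  have hr' := abs_le.1 hr
  have hT : (0 : ℝ) ≤ B.T := Nat.cast_nonneg _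
  obtain ⟨φ, hφ⟩ : ∃ φ : A.V → ℝ, φ = fun x =>
      if x = a then ψ B.s else if x = b then ψ B.t else min (ψ B.s) (ψ B.t) + B.T := ⟨_, rfl⟩
  have hstep : ∀ d, |φ (A.tgt d) - φ (A.src d)| ≤ B.T := by
    intro d
    have := min_le_left (ψ B.s) (ψ B.t)
    have := min_le_right (ψ B.s) (ψ B.t)
    have := min_choice (ψ B.s) (ψ B.t)
    simp only [hφ]
    rw [abs_le]
    split_ifs <;> constructor <;>
      (rcases min_choice (ψ B.s) (ψ B.t) with h | h <;> linarith)
  have hφa : φ a = ψ B.s := by simp [hφ]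
  have hφb : φ b = ψ B.t := by simp [hφ, hab.symm]
  obtain ⟨χ, hχ⟩ : ∃ χ : A.E → B.V → ℝ, χ = fun d x =>
      if d = e then ψ x else interp B (φ (A.src d)) (φ (A.tgt d)) x := ⟨_, rfl⟩
  have hs : ∀ d, χ d B.s = φ (A.src d) := by
    intro d
    simp only [hχ]
    split_ifs with h
    · rw [h, ← ha, hφa]
    · exact (interp_spec B (hstep d)).1
  have ht : ∀ d, χ d B.t = φ (A.tgt d) := by
    intro d
    simp only [hχ]
    split_ifs with h
    · rw [h, ← hb, hφb]
    · exact (interp_spec B (hstep d)).2.1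
  have hp : ∀ d, B.Pot (χ d) := by
    intro d
    simp only [hχ]
    by_cases h : d = e
    · simp only [h, if_true]; exact hψ
    · simp only [h, if_false]; exact (interp_spec B (hstep d)).2.2
  have := hC _ (glue_pot A B φ χ hs ht hp) (emb A B e u) (emb A B e v)
  rw [glue_emb A B φ χ hs ht, glue_emb A B φ χ hs ht] at this
  simpa [hχ] using this

/-- The old vertices are scaled isometrically in a replacement. -/
theorem good_top {A B : Net} {C : ℝ} {f : (repl A B).V → Ω → ℝ}
    (hC : Good (repl A B) μ C f) {φ : A.V → ℝ} (hφ : A.Pot φ) (u v : A.V) :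
    (B.T : ℝ) * (φ u - φ v) ≤ C * d1 μ (f (top A B u)) (f (top A B v)) := by
  have hT : (0 : ℝ) ≤ B.T := Nat.cast_nonneg _
  have hstep : ∀ d, |(B.T : ℝ) * φ (A.tgt d) - B.T * φ (A.src d)| ≤ B.T := by
    intro d
    rw [← mul_sub, abs_mul, abs_of_nonneg hT]
    exact mul_le_of_le_one_right hT (hφ d)
  have := hC _ (glue_pot A B (fun x => B.T * φ x)
    (fun d => interp B (B.T * φ (A.src d)) (B.T * φ (A.tgt d)))
    (fun d => (interp_spec B (hstep d)).1) (fun d => (interp_spec B (hstep d)).2.1)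
    (fun d => (interp_spec B (hstep d)).2.2)) (top A B u) (top A B v)
  rw [glue_top, glue_top] at this
  linarith

/-- Slash powers. -/
noncomputable def slash (G : Net) : ℕ → Net
  | 0 => edgeNet
  | m + 1 => repl G (slash G m)

theorem slash_T (G : Net) : ∀ m, (slash G m).T = G.T ^ m
  | 0 => rfl
  | m + 1 => by
    show (slash G m).T * G.T = G.T ^ (m + 1)
    rw [slash_T G m, pow_succ]

/-- A uniform contraction of the pair source, sink in `G` is amplified in its slash powers. -/
theorem slash_contract {G : Net} {C ε : ℝ} (hε : 0 ≤ ε) (hε1 : ε < 1)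
    (hG : ∀ g, Lip G μ g → Good G μ C g → d1 μ (g G.t) (g G.s) ≤ (1 - ε) * G.T) :
    ∀ m f, Lip (slash G m) μ f → Good (slash G m) μ C f →
      d1 μ (f (slash G m).t) (f (slash G m).s) ≤ ((1 - ε) * G.T) ^ m := by
  intro m
  induction m with
  | zero =>
    intro f hf _
    rw [pow_zero]
    exact hf.edge ()
  | succ m ih =>
    intro (f : (repl G (slash G m)).V → Ω → ℝ)
      (hf : Lip (repl G (slash G m)) μ f) (hC : Good (repl G (slash G m)) μ C f)
    have hC0 := hC.pos
    have hT : (0 : ℝ) < G.T := by exact_mod_cast G.T_pos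
    obtain ⟨q, hq⟩ : ∃ q : ℝ, q = ((1 - ε) * G.T) ^ m := ⟨_, rfl⟩
    have hq0 : 0 < q := hq ▸ pow_pos (mul_pos (by linarith) hT) m
    have hqT : q ≤ ((slash G m).T : ℝ) := by
      rw [hq, slash_T, Nat.cast_pow]
      exact pow_le_pow_left₀ (mul_nonneg (by linarith) hT.le)
        (mul_le_of_le_one_left hT.le (by linarith)) m
    have key := hG (fun v x => f (top G (slash G m) v) x / q)
      ⟨fun v => (hf.int _).div_const q, fun e => by
        rw [d1_div _ _ hq0, div_le_one hq0, hq]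
        exact ih _ (lip_copy hf e) (good_copy hC e)⟩
      fun φ hφ u v => by
        have h := good_top hC hφ u v
        rw [d1_div _ _ hq0, mul_div_assoc', le_div_iff₀ hq0]
        rcases le_total (φ u - φ v) 0 with hn | hp
        · have := mul_nonneg hC0.le
            (d1_nonneg (μ := μ) (f (top G (slash G m) u)) (f (top G (slash G m) v)))
          nlinarith
        · nlinarith
    rw [d1_div _ _ hq0, div_le_iff₀ hq0] at key
    rw [pow_succ, ← hq, mul_comm]
    exact key

/-- The step of the recursion: hardness grows by any amount below `2`. -/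
theorem hard_step {N : Net} {D γ : ℝ} (hD : 0 ≤ D) (hN : Hard N D) (hγ0 : 0 ≤ γ) (hγ : γ < 2) :
    ∃ L m, Hard (slash (comp N L) m) (D + γ) := by
  obtain ⟨L, hL⟩ := exists_nat_ge (4 / (2 - γ))
  have h2g : 0 < 2 - γ := by linarith
  rw [div_le_iff₀ h2g] at hL
  obtain ⟨η, hη⟩ : ∃ η : ℝ, η = (2 - γ) / (32 * (D + 2)) := ⟨_, rfl⟩
  have hη0 : 0 < η := hη ▸ by positivity
  have hη1 : η < 1 := by
    rw [hη, div_lt_one (by positivity)]; linarith
  have hT : (1 : ℝ) ≤ (comp N L).T := by exact_mod_cast (comp N L).T_pos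
  obtain ⟨ε, hε⟩ : ∃ ε : ℝ, ε = η / (comp N L).T := ⟨_, rfl⟩
  have hε0 : 0 < ε := hε ▸ by positivity
  have hε1 : ε < 1 := by
    rw [hε, div_lt_one (by linarith)]; linarith
  obtain ⟨m, hm⟩ := exists_pow_lt_of_lt_one (show (0 : ℝ) < 1 / (D + 2) by positivity)
    (show 1 - ε < 1 by linarith)
  refine ⟨L, m, fun Ω _ μ f C hf hC => ?_⟩
  by_contra hlt
  rw [not_le] at hlt
  have hC0 := hC.pos
  have hnone : ∀ g, Lip (comp N L) μ g → Good (comp N L) μ C g →
      d1 μ (g (comp N L).t) (g (comp N L).s) ≤ (1 - ε) * (comp N L).T := by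
    intro g hg hgC
    by_contra hgt
    obtain ⟨g', h1, h2, h3⟩ := exists_mono hg hgC (not_le.1 hgt)
    have key := comp_step hN h1 h2 h3
    have e1 : ε * ((comp N L).T : ℝ) = η := by rw [hε]; field_simp
    rw [e1] at key
    have e2 : 8 * η * C ≤ (2 - γ) / 4 := by
      calc 8 * η * C ≤ 8 * η * (D + 2) := mul_le_mul_of_nonneg_left (by linarith) (by linarith)
        _ = (2 - γ) / 4 := by rw [hη]; field_simp; ring
    have e3 : 2 / (steps L : ℝ) ≤ (2 - γ) / 4 := by
      simp only [steps, Nat.cast_mul, Nat.cast_add, Nat.cast_one, Nat.cast_ofNat]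
      rw [div_le_iff₀ (by positivity)]
      nlinarith
    linarith
  have hu := slash_contract hε0.le hε1 hnone m f hf hC
  have hl := hC.T_le
  rw [slash_T, Nat.cast_pow] at hl
  rw [mul_pow] at hu
  have hTm : (0 : ℝ) < ((comp N L).T : ℝ) ^ m := pow_pos (by linarith) m
  have h4 : C * (1 - ε) ^ m < 1 := by
    calc C * (1 - ε) ^ m ≤ (D + 2) * (1 - ε) ^ m :=
          mul_le_mul_of_nonneg_right (by linarith) (pow_nonneg (by linarith) m)
      _ < (D + 2) * (1 / (D + 2)) := mul_lt_mul_of_pos_left hm (by linarith)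
      _ = 1 := by field_simp
  nlinarith [mul_le_mul_of_nonneg_left hu hC0.le, mul_lt_mul_of_pos_right h4 hTm]

end Vale.Agent.P235.Low
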