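import Vale.Agent.P235.Low.Slash

/-! # P235, lower bound: rooted tree decompositions of the constructions -/

namespace Vale.Agent.P235.Low

/-- A rooted tree decomposition with two given vertices in the root bag. -/
structure TDOn {V E : Type} (src tgt : E → V) (s t : V) (k : ℕ) where
  ι : Type
  fin : Fintype ι
  dec : DecidableEq ι
  root : ι
  par : ι → ι
  rank : ι → ℕ
  rank_lt : ∀ i, i ≠ root → rank (par i) < rank i
  bag : ι → Finset V
  card_le : ∀ i, (bag i).card ≤ k + 1
  s_mem : s ∈ bag root
  t_mem : t ∈ bag root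
  home : V → ι
  home_mem : ∀ v, v ∈ bag (home v)
  conn : ∀ v i, v ∈ bag i → i ≠ home v → i ≠ root ∧ v ∈ bag (par i)
  host : E → ι
  host_src : ∀ e, src e ∈ bag (host e)
  host_tgt : ∀ e, tgt e ∈ bag (host e)

attribute [instance] TDOn.fin TDOn.dec

/-- A rooted tree decomposition of a net. -/
abbrev TD (N : Net) (k : ℕ) : Type 1 := TDOn N.src N.tgt N.s N.t k

theorem edge_td (k : ℕ) (hk : 1 ≤ k) : Nonempty (TD edgeNet k) := by
  refine ⟨⟨Unit, inferInstance, inferInstance, (), id, fun _ => 0, fun i hi => absurd rfl hi,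
    fun _ => {edgeNet.s, edgeNet.t}, fun _ => Finset.card_le_two.trans (by omega), by simp, by simp,
    fun _ => (), ?_, fun v i _ hi => absurd rfl hi, fun _ => (), ?_, ?_⟩⟩
  · rintro (b | x)
    · cases b <;> simp [Net.s, Net.t]
    · exact x.elim
  · intro e; exact Finset.mem_insert_self _ _
  · intro e; exact Finset.mem_insert_of_mem (Finset.mem_singleton_self _)

theorem repl_td {A B : Net} {k : ℕ} (P : TD A k) (Q : TD B k) : Nonempty (TD (repl A B) k) := by
  classical
  show Nonempty (TDOn (V := Bool ⊕ (A.I ⊕ (A.E × B.I))) (fun p : A.E × B.E => emb A B p.1 (B.src p.2))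
    (fun p : A.E × B.E => emb A B p.1 (B.tgt p.2)) (Sum.inl false) (Sum.inl true) k)
  obtain ⟨par, hpar⟩ : ∃ par : P.ι ⊕ (A.E × Q.ι) → P.ι ⊕ (A.E × Q.ι), par = Sum.elim
      (fun i => Sum.inl (P.par i))
      (fun q => if q.2 = Q.root then Sum.inl (P.host q.1) else Sum.inr (q.1, Q.par q.2)) :=
    ⟨_, rfl⟩
  obtain ⟨R, hR⟩ : ∃ R : ℕ, R = Finset.univ.sup P.rank + 1 := ⟨_, rfl⟩
  obtain ⟨bag, hbag⟩ : ∃ bag : P.ι ⊕ (A.E × Q.ι) → Finset (Bool ⊕ (A.I ⊕ (A.E × B.I))),
      bag = Sum.elim (fun i => (P.bag i).image (top A B))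
      (fun q => (Q.bag q.2).image (emb A B q.1)) := ⟨_, rfl⟩
  obtain ⟨home, hhome⟩ : ∃ home : Bool ⊕ (A.I ⊕ (A.E × B.I)) → P.ι ⊕ (A.E × Q.ι), home =
      glue A B (fun v => Sum.inl (P.home v)) (fun e v => Sum.inr (e, Q.home v)) := ⟨_, rfl⟩
  have htopinj : Function.Injective (top A B) := by
    rintro (b | i) (b' | i') h <;> simp_all [top]
  have hroot : ∀ y, y ∈ Q.bag Q.root → Q.home y = Q.root := fun y hy => by
    by_contra hne
    exact (Q.conn y Q.root hy (Ne.symm hne)).1 rfl
  have hps : ∀ (e : A.E) (y : B.V), y = B.s ∨ y = B.t →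
      ∃ x, emb A B e y = top A B x ∧ x ∈ P.bag (P.host e) := by
    rintro e y (rfl | rfl)
    · exact ⟨A.src e, by simp [emb, Net.s], P.host_src e⟩
    · exact ⟨A.tgt e, by simp [emb, Net.t], P.host_tgt e⟩
  refine ⟨⟨P.ι ⊕ (A.E × Q.ι), inferInstance, Classical.decEq _, Sum.inl P.root, par,
    Sum.elim P.rank (fun q => R + Q.rank q.2), ?_, bag, ?_, ?_, ?_, home, ?_, ?_,
    fun p : A.E × B.E => Sum.inr (p.1, Q.host p.2), ?_, ?_⟩⟩
  · rintro (i | ⟨e, j⟩) hne
    · simp only [hpar, Sum.elim_inl]
      exact P.rank_lt i fun h => hne (by rw [h])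
    · simp only [hpar, Sum.elim_inr]
      split_ifs with h
      · simp only [Sum.elim_inl, hR]
        have := Finset.le_sup (f := P.rank) (Finset.mem_univ (P.host e))
        omega
      · simp only [Sum.elim_inr]
        have := Q.rank_lt j h
        omega
  · rintro (i | q)
    · simp only [hbag, Sum.elim_inl]
      exact Finset.card_image_le.trans (P.card_le i)
    · simp only [hbag, Sum.elim_inr]
      exact Finset.card_image_le.trans (Q.card_le q.2)
  · simp only [hbag, Sum.elim_inl]
    exact Finset.mem_image.2 ⟨A.s, P.s_mem, rfl⟩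
  · simp only [hbag, Sum.elim_inl]
    exact Finset.mem_image.2 ⟨A.t, P.t_mem, rfl⟩
  · rintro (b | i | ⟨e, i⟩)
    · simp only [hhome, hbag, glue, Sum.elim_inl]
      exact Finset.mem_image.2 ⟨Sum.inl b, P.home_mem _, rfl⟩
    · simp only [hhome, hbag, glue, Sum.elim_inr, Sum.elim_inl]
      exact Finset.mem_image.2 ⟨Sum.inr i, P.home_mem _, rfl⟩
    · simp only [hhome, hbag, glue, Sum.elim_inr]
      exact Finset.mem_image.2 ⟨Sum.inr i, Q.home_mem _, rfl⟩
  · rintro v (i | ⟨e, j⟩) hv hne
    · simp only [hbag, Sum.elim_inl] at hv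
      obtain ⟨x, hx, rfl⟩ := Finset.mem_image.1 hv
      rw [hhome, glue_top] at hne
      obtain ⟨h1, h2⟩ := P.conn x i hx fun h => hne (by rw [h])
      refine ⟨fun h => h1 (Sum.inl.inj h), ?_⟩
      simp only [hpar, hbag, Sum.elim_inl]
      exact Finset.mem_image.2 ⟨x, h2, rfl⟩
    · simp only [hbag, Sum.elim_inr] at hv
      obtain ⟨y, hy, rfl⟩ := Finset.mem_image.1 hv
      refine ⟨by simp, ?_⟩
      simp only [hpar, Sum.elim_inr]
      rcases y with b | i
      · have hst : (Sum.inl b : B.V) = B.s ∨ (Sum.inl b : B.V) = B.t := by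
          cases b <;> simp [Net.s, Net.t]
        have hroot' : (Sum.inl b : B.V) ∈ Q.bag Q.root := by
          rcases hst with h | h <;> rw [h]
          · exact Q.s_mem
          · exact Q.t_mem
        split_ifs with h
        · obtain ⟨x, hx, hx'⟩ := hps e _ hst
          simp only [hbag, Sum.elim_inl]
          exact Finset.mem_image.2 ⟨x, hx', hx.symm⟩
        · have := Q.conn _ j hy (by rw [hroot _ hroot']; exact h)
          simp only [hbag, Sum.elim_inr]
          exact Finset.mem_image.2 ⟨_, this.2, rfl⟩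
      · obtain ⟨h1, h2⟩ := Q.conn _ j hy fun h => hne (by rw [hhome, h]; rfl)
        rw [if_neg h1]
        simp only [hbag, Sum.elim_inr]
        exact Finset.mem_image.2 ⟨_, h2, rfl⟩
  · intro p
    simp only [hbag, Sum.elim_inr]
    exact Finset.mem_image.2 ⟨_, Q.host_src p.2, rfl⟩
  · intro p
    simp only [hbag, Sum.elim_inr]
    exact Finset.mem_image.2 ⟨_, Q.host_tgt p.2, rfl⟩

theorem slash_td {G : Net} {k : ℕ} (hk : 1 ≤ k) (P : TD G k) :
    ∀ m, Nonempty (TD (slash G m) k)
  | 0 => edge_td k hk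
  | m + 1 => by
    obtain ⟨Q⟩ := slash_td hk P m
    exact repl_td P Q

/-- The position one step closer to the layer. -/
def nxt (h p : ℕ) : ℕ := if p < h then p + 1 else if h < p then p - 1 else p

theorem comp_td {N : Net} (L : ℕ) {k : ℕ} (hk : 4 ≤ k) (P : TD N k) :
    Nonempty (TD (comp N L) (k + 2)) := by
  haveI hW : DecidableEq (W N L) := inferInstance
  let ι : Type := P.ι ⊕ ((N.E × Fin (steps L)) ⊕ (W N L × Fin (2 * margin N L)))
  let cs : Bool ⊕ (W N L × Fin (2 * margin N L)) := Sum.inl false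
  let ct : Bool ⊕ (W N L × Fin (2 * margin N L)) := Sum.inl true
  show Nonempty (TDOn (V := Bool ⊕ (W N L × Fin (2 * margin N L)))
    (Sum.elim (fun p : W N L × Fin (2 * margin N L + 1) => col N L p.1 p.2)
      (fun q : N.E × Fin (steps L) × Bool × Bool => lay N L (pt N L q.1 (lo q.2.1) q.2.2.1)))
    (Sum.elim (fun p : W N L × Fin (2 * margin N L + 1) => col N L p.1 ((p.2 : ℕ) + 1))
      (fun q : N.E × Fin (steps L) × Bool × Bool => lay N L (pt N L q.1 (hi q.2.1) q.2.2.2)))
    (Sum.inl false) (Sum.inl true) (k + 2))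
  have hpos : 0 < steps L := by simp [steps]
  obtain ⟨nd, hnd⟩ : ∃ nd : W N L → ι, nd = Sum.elim (fun v => Sum.inl (P.home v))
      (fun q => Sum.inr (Sum.inl (q.1, ⟨q.2.1, by have := q.2.1.isLt; simp only [steps]; omega⟩))) :=
    ⟨_, rfl⟩
  obtain ⟨par, hpar⟩ : ∃ par : ι → ι, par = Sum.elim (fun i => Sum.inl (P.par i))
      (Sum.elim
        (fun q => if (q.2 : ℕ) = 0 then Sum.inl (P.host q.1) else
          Sum.inr (Sum.inl (q.1, ⟨(q.2 : ℕ) - 1, by omega⟩)))
        (fun q => if hq : (q.2 : ℕ) + 1 = hw N L q.1 then nd q.1 else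
          Sum.inr (Sum.inr (q.1, ⟨nxt (hw N L q.1) ((q.2 : ℕ) + 1) - 1, by
            have := hw_bounds N L q.1
            have := q.2.isLt
            have := margin_pos N L
            unfold nxt; split_ifs <;> omega⟩)))) := ⟨_, rfl⟩
  obtain ⟨bag, hbag⟩ : ∃ bag : ι → Finset (Bool ⊕ (W N L × Fin (2 * margin N L))),
      bag = fun i => insert cs (insert ct (Sum.elim
        (fun i => (P.bag i).image fun v => lay N L (Sum.inl v))
        (Sum.elim
          (fun q => {lay N L (Sum.inl (N.tgt q.1)), lay N L (pt N L q.1 q.2 true),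
            lay N L (pt N L q.1 q.2 false), lay N L (pt N L q.1 ((q.2 : ℕ) + 1) true),
            lay N L (pt N L q.1 ((q.2 : ℕ) + 1) false)})
          (fun q => {col N L q.1 ((q.2 : ℕ) + 1),
            col N L q.1 (nxt (hw N L q.1) ((q.2 : ℕ) + 1))})) i)) := ⟨_, rfl⟩
  obtain ⟨home, hhome⟩ : ∃ home : Bool ⊕ (W N L × Fin (2 * margin N L)) → ι, home = Sum.elim
      (fun _ => Sum.inl P.root)
      (fun q => if (q.2 : ℕ) + 1 = hw N L q.1 then nd q.1 else Sum.inr (Sum.inr q)) := ⟨_, rfl⟩
  have hlay : ∀ w, lay N L w ∈ bag (nd w) := by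
    intro w
    rcases w with v | ⟨e, j, b⟩
    · simp only [hnd, hbag, Sum.elim_inl]
      exact Finset.mem_insert_of_mem (Finset.mem_insert_of_mem
        (Finset.mem_image.2 ⟨v, P.home_mem v, rfl⟩))
    · simp only [hnd, hbag, Sum.elim_inr, Sum.elim_inl]
      cases b <;> simp [pt_inr]
  have hcolw : ∀ w, col N L w (hw N L w) = lay N L w := fun w => rfl
  have hlayhome : ∀ w, home (lay N L w) = nd w := by
    intro w
    have := hw_bounds N L w
    have := margin_pos N L
    simp only [hhome, lay, col]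
    rw [dif_pos ⟨by omega, by omega⟩]
    simp only [Sum.elim_inr]
    rw [if_pos (by omega)]
  obtain ⟨B₀, hB₀⟩ : ∃ B₀ : ℕ, B₀ = Finset.univ.sup P.rank + 1 := ⟨_, rfl⟩
  obtain ⟨rk, hrk⟩ : ∃ rk : ι → ℕ, rk = Sum.elim P.rank (Sum.elim (fun q => B₀ + q.2)
      (fun q => B₀ + steps L + 1 + ((((q.2 : ℕ) + 1) - hw N L q.1) +
        (hw N L q.1 - ((q.2 : ℕ) + 1))))) := ⟨_, rfl⟩
  have hle : ∀ i, P.rank i < B₀ := fun i => by
    have := Finset.le_sup (f := P.rank) (Finset.mem_univ i); omega
  refine ⟨⟨ι, inferInstance, Classical.decEq _, Sum.inl P.root, par, rk, ?_, bag, ?_, ?_, ?_, home,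
    ?_, ?_, Sum.elim
      (fun p => Sum.inr (Sum.inr (p.1, if hp : (p.2 : ℕ) + 1 ≤ hw N L p.1
        then ⟨(p.2 : ℕ) - 1, by have := margin_pos N L; have := p.2.isLt; omega⟩
        else ⟨min (p.2 : ℕ) (2 * margin N L - 1), by have := margin_pos N L; omega⟩)))
      (fun q => Sum.inr (Sum.inl (q.1, q.2.1))), ?_, ?_⟩⟩
  · rintro (i | ⟨e, j⟩ | ⟨w, i⟩) hne
    · simp only [hpar, hrk, Sum.elim_inl]
      exact P.rank_lt i fun h => hne (by rw [h])
    · simp only [hpar, Sum.elim_inr, Sum.elim_inl]
      split_ifs with h <;> simp only [hrk, Sum.elim_inr, Sum.elim_inl]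
      · have := hle (P.host e); omega
      · omega
    · simp only [hpar, Sum.elim_inr]
      by_cases h : (i : ℕ) + 1 = hw N L w
      · rw [dif_pos h]
        rcases w with v | ⟨e, j, b⟩ <;> simp only [hnd, hrk, Sum.elim_inr, Sum.elim_inl]
        · have := hle (P.home v); omega
        · have := j.isLt; simp only [steps]; omega
      · rw [dif_neg h]
        simp only [hrk, Sum.elim_inr]
        have := hw_bounds N L w
        have := margin_pos N L
        unfold nxt
        split_ifs <;> omega
  · rintro (i | q | q) <;> simp only [hbag, Sum.elim_inl, Sum.elim_inr]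
    · exact (Finset.card_insert_le _ _).trans ((Nat.succ_le_succ (Finset.card_insert_le _ _)).trans
        (Nat.succ_le_succ (Nat.succ_le_succ (Finset.card_image_le.trans (P.card_le i)))))
    · refine (Finset.card_insert_le _ _).trans ((Nat.succ_le_succ (Finset.card_insert_le _ _)).trans ?_)
      have := Finset.card_le_five (a := lay N L (Sum.inl (N.tgt q.1)))
        (b := lay N L (pt N L q.1 q.2 true)) (c := lay N L (pt N L q.1 q.2 false))
        (d := lay N L (pt N L q.1 ((q.2 : ℕ) + 1) true))
        (e := lay N L (pt N L q.1 ((q.2 : ℕ) + 1) false))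
      omega
    · refine (Finset.card_insert_le _ _).trans ((Nat.succ_le_succ (Finset.card_insert_le _ _)).trans ?_)
      have := Finset.card_le_two (a := col N L q.1 ((q.2 : ℕ) + 1))
        (b := col N L q.1 (nxt (hw N L q.1) ((q.2 : ℕ) + 1)))
      omega
  · simp only [hbag]; exact Finset.mem_insert_self _ _
  · simp only [hbag]; exact Finset.mem_insert_of_mem (Finset.mem_insert_self _ _)
  · rintro (b | ⟨w, i⟩)
    · simp only [hhome, hbag, Sum.elim_inl]
      cases b <;> simp [cs, ct]
    · simp only [hhome, Sum.elim_inr]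
      split_ifs with h
      · have := col_inr N L (w, i)
        simp only at this
        rw [← this, h]
        exact hlay w
      · simp only [hbag, Sum.elim_inr]
        rw [col_inr N L (w, i)]
        simp
  · intro v i hv hne
    by_cases hv' : v = cs ∨ v = ct
    · refine ⟨fun h => hne ?_, ?_⟩
      · rw [h, hhome]; rcases hv' with rfl | rfl <;> rfl
      · simp only [hbag]; rcases hv' with rfl | rfl <;> simp
    rw [not_or] at hv'
    simp only [hbag, Finset.mem_insert, hv'.1, hv'.2, false_or] at hv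
    rcases i with i | ⟨e, j⟩ | ⟨w, p⟩
    · simp only [Sum.elim_inl, Finset.mem_image] at hv
      obtain ⟨x, hx, rfl⟩ := hv
      rw [hlayhome, hnd] at hne
      obtain ⟨h1, h2⟩ := P.conn x i hx fun h => hne (by rw [h]; rfl)
      refine ⟨fun h => h1 (Sum.inl.inj h), ?_⟩
      simp only [hpar, hbag, Sum.elim_inl]
      exact Finset.mem_insert_of_mem (Finset.mem_insert_of_mem (Finset.mem_image.2 ⟨x, h2, rfl⟩))
    · refine ⟨by simp, ?_⟩
      simp only [Sum.elim_inr, Sum.elim_inl, Finset.mem_insert, Finset.mem_singleton] at hv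
      have hj := j.isLt
      have hT : v = lay N L (Sum.inl (N.tgt e)) →
          v ∈ bag (par (Sum.inr (Sum.inl (e, j)))) := by
        rintro rfl
        simp only [hpar, Sum.elim_inr, Sum.elim_inl]
        split_ifs with h <;> simp only [hbag, Sum.elim_inl, Sum.elim_inr]
        · exact Finset.mem_insert_of_mem (Finset.mem_insert_of_mem
            (Finset.mem_image.2 ⟨_, P.host_tgt e, rfl⟩))
        · simp
      have hlo : ∀ b, v = lay N L (pt N L e j b) →
          v ∈ bag (par (Sum.inr (Sum.inl (e, j)))) := by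
        rintro b rfl
        simp only [hpar, Sum.elim_inr, Sum.elim_inl]
        split_ifs with h <;> simp only [hbag, Sum.elim_inl, Sum.elim_inr]
        · rw [h, pt_zero]
          exact Finset.mem_insert_of_mem (Finset.mem_insert_of_mem
            (Finset.mem_image.2 ⟨_, P.host_src e, rfl⟩))
        · rw [show (j : ℕ) - 1 + 1 = j by omega]
          cases b <;> simp
      have hhi : ∀ b, v = lay N L (pt N L e ((j : ℕ) + 1) b) →
          v ∈ bag (par (Sum.inr (Sum.inl (e, j)))) := by
        rintro b rfl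
        by_cases h : (j : ℕ) + 1 = steps L
        · exact hT (by rw [h, pt_top])
        · refine absurd ?_ hne
          simp only [steps] at h hj
          rw [show (j : ℕ) + 1 = ((⟨j, by omega⟩ : Fin (2 * L + 1)) : ℕ) + 1 from rfl, pt_inr,
            hlayhome, hnd]
          rfl
      rcases hv with h | h | h | h | h
      · exact hT h
      · exact hlo _ h
      · exact hlo _ h
      · exact hhi _ h
      · exact hhi _ h
    · refine ⟨by simp, ?_⟩
      simp only [Sum.elim_inr, Finset.mem_insert, Finset.mem_singleton] at hv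
      have hb := hw_bounds N L w
      have hm := margin_pos N L
      have hp := p.isLt
      simp only [hpar, Sum.elim_inr]
      by_cases h : (p : ℕ) + 1 = hw N L w
      · rw [dif_pos h]
        have hn : nxt (hw N L w) ((p : ℕ) + 1) = hw N L w := by
          rw [h]; simp [nxt]
        rw [hn, h, or_self] at hv
        rw [hv]; exact hlay w
      · rw [dif_neg h]
        rcases hv with rfl | rfl
        · refine absurd ?_ hne
          rw [col_inr N L (w, p), hhome]
          simp [h]
        · simp only [hbag, Sum.elim_inr]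
          have : 0 < nxt (hw N L w) ((p : ℕ) + 1) := by unfold nxt; split_ifs <;> omega
          rw [show nxt (hw N L w) ((p : ℕ) + 1) - 1 + 1 = nxt (hw N L w) ((p : ℕ) + 1) by omega]
          simp
  · rintro (⟨w, p⟩ | ⟨e, j, b, b'⟩)
    · show col N L w p ∈ _
      have hb := hw_bounds N L w
      have hm := margin_pos N L
      have hp := p.isLt
      simp only [hbag, Sum.elim_inl, Sum.elim_inr]
      split_ifs with h <;> dsimp only
      · rcases Nat.eq_zero_or_pos (p : ℕ) with h0 | h0
        · rw [h0]; simp [col, cs]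
        · simp only [show (p : ℕ) - 1 + 1 = p by omega]
          simp
      · rcases eq_or_lt_of_le (show (p : ℕ) ≤ 2 * margin N L by omega) with h0 | h0
        · rw [h0, show min (2 * margin N L) (2 * margin N L - 1) + 1 = 2 * margin N L by omega]
          simp
        · rw [show min (p : ℕ) (2 * margin N L - 1) = p by omega,
            show nxt (hw N L w) ((p : ℕ) + 1) = p by unfold nxt; split_ifs <;> omega]
          simp
    · show lay N L (pt N L e (lo j) b) ∈ _
      simp only [hbag, Sum.elim_inr, Sum.elim_inl]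
      unfold lo
      split_ifs <;> cases b <;> simp
  · rintro (⟨w, p⟩ | ⟨e, j, b, b'⟩)
    · show col N L w ((p : ℕ) + 1) ∈ _
      have hb := hw_bounds N L w
      have hm := margin_pos N L
      have hp := p.isLt
      simp only [hbag, Sum.elim_inl, Sum.elim_inr]
      split_ifs with h <;> dsimp only
      · rcases Nat.eq_zero_or_pos (p : ℕ) with h0 | h0
        · simp [h0]
        · simp only [show (p : ℕ) - 1 + 1 = p by omega]
          rw [show nxt (hw N L w) p = p + 1 by unfold nxt; split_ifs <;> omega]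
          simp
      · rcases eq_or_lt_of_le (show (p : ℕ) ≤ 2 * margin N L by omega) with h0 | h0
        · have : col N L w ((p : ℕ) + 1) = ct := by
            simp only [col, ct]
            rw [dif_neg (by omega), if_neg (by omega)]
          rw [this]; simp
        · rw [show min (p : ℕ) (2 * margin N L - 1) = p by omega]
          simp
    · show lay N L (pt N L e (hi j) b') ∈ _
      simp only [hbag, Sum.elim_inr, Sum.elim_inl]
      unfold hi
      split_ifs <;> cases b' <;> simp

end Vale.Agent.P235.Low
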